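import Vale.Agent.P264.CkC

/-! The matrices of the two quadratic forms, as expressions. -/

namespace Vale.Agent.P264.Ck

/-- a matrix entry -/
def a1_0_0 : E :=
  (.add (.half 40 (.c (Int.negSucc 1030792160414))) (.mul (.v 7) (.mul (.c (Int.ofNat 18750)) (.v 12))))

/-- a matrix entry -/
def a1_1_0 : E :=
  (.add (.add (.mul (.c (Int.ofNat 9375)) (.v 38)) (.mul (.v 7) (.add (.mul (.c (Int.ofNat 187500)) (.v 12)) (.mul (.mul (.c (Int.ofNat 18750)) (.v 0)) (.v 11))))) (.mul (.v 6) (.mul (.c (Int.ofNat 9375)) (.v 12))))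

/-- a matrix entry -/
def a1_1_1 : E :=
  (.add (.add (.add (.add (.add (.mul (.c (Int.ofNat 18750)) (.v 40)) (.mul (.c (Int.negSucc 9374)) (.v 38))) (.mul (.mul (.c (Int.ofNat 9375)) (.v 0)) (.v 37))) (.half 40 (.c (Int.negSucc 1030792160414)))) (.mul (.v 7) (.add (.mul (.c (Int.ofNat 675000)) (.v 12)) (.mul (.mul (.c (Int.ofNat 675000)) (.v 0)) (.v 11))))) (.mul (.v 6) (.add (.mul (.c (Int.ofNat 37500)) (.v 12)) (.mul (.mul (.c (Int.ofNat 37500)) (.v 0)) (.v 11)))))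

/-- a matrix entry -/
def a1_2_0 : E :=
  (.add (.add (.mul (.mul (.c (Int.ofNat 9375)) (.v 1)) (.v 40)) (.mul (.v 7) (.add (.add (.add (.mul (.mul (.c (Int.negSucc 9374)) (.v 1)) (.v 14)) (.mul (.mul (.c (Int.ofNat 468750)) (.v 1)) (.v 12))) (.mul (.mul (.mul (.add (.mul .x (.c (Int.negSucc 18749))) (.c (Int.ofNat 28125))) (.v 0)) (.v 1)) (.v 11))) (.mul (.mul (.mul (.mul (.c (Int.ofNat 9375)) (.v 0)) (.v 0)) (.v 1)) (.v 10))))) (.mul (.v 6) (.mul (.mul (.c (Int.ofNat 187500)) (.v 1)) (.v 12))))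

/-- a matrix entry -/
def a1_2_1 : E :=
  (.add (.add (.add (.add (.add (.mul (.mul (.c (Int.ofNat 9375)) (.v 1)) (.v 44)) (.mul (.mul (.c (Int.ofNat 9375)) (.v 1)) (.v 42))) (.mul (.mul (.c (Int.negSucc 9374)) (.v 1)) (.v 40))) (.mul (.mul (.mul (.c (Int.ofNat 9375)) (.v 0)) (.v 1)) (.v 39))) (.mul (.v 7) (.add (.add (.add (.mul (.mul (.c (Int.negSucc 168749)) (.v 1)) (.v 14)) (.mul (.mul (.c (Int.ofNat 1087500)) (.v 1)) (.v 12))) (.mul (.mul (.mul (.add (.mul .x (.c (Int.negSucc 337499))) (.c (Int.ofNat 1425000))) (.v 0)) (.v 1)) (.v 11))) (.mul (.mul (.mul (.mul (.c (Int.ofNat 168750)) (.v 0)) (.v 0)) (.v 1)) (.v 10))))) (.mul (.v 6) (.add (.add (.add (.mul (.mul (.c (Int.negSucc 9374)) (.v 1)) (.v 14)) (.mul (.mul (.c (Int.ofNat 384375)) (.v 1)) (.v 12))) (.mul (.mul (.mul (.add (.mul .x (.c (Int.negSucc 18749))) (.c (Int.ofNat 403125))) (.v 0)) (.v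 1)) (.v 11))) (.mul (.mul (.mul (.mul (.c (Int.ofNat 9375)) (.v 0)) (.v 0)) (.v 1)) (.v 10)))))

/-- a matrix entry -/
def a1_2_2 : E :=
  (.add (.add (.add (.half 1 (.add (.add (.add (.add (.mul (.mul (.mul (.c (Int.ofNat 37500)) (.v 1)) (.v 1)) (.v 46)) (.mul (.mul (.mul (.c (Int.negSucc 18749)) (.v 1)) (.v 1)) (.v 42))) (.mul (.mul (.mul (.mul (.c (Int.ofNat 18750)) (.v 0)) (.v 1)) (.v 1)) (.v 41))) (.mul (.mul (.mul (.c (Int.ofNat 2109375)) .x) .x) (.v 12))) (.mul (.mul (.mul (.mul (.c (Int.negSucc 2109374)) (.v 0)) .x) .x) (.v 11)))) (.half 40 (.add (.mul .x (.add (.mul .x (.c (Int.negSucc 232959026135039))) (.c (Int.ofNat 2061584302080)))) (.c (Int.negSucc 1030792160414))))) (.mul (.v 7) (.add (.add (.add (.mul (.mul (.mul (.c (Int.negSucc 918749)) (.v 1)) (.v 1)) (.v 14)) (.mul (.mul (.mul (.c (Int.ofNat 918750)) (.v 1)) (.v 1)) (.v 12))) (.mul (.mul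 (.mul (.mul (.add (.mul .x (.c (Int.negSucc 1837499))) (.c (Int.ofNat 2756250))) (.v 0)) (.v 1)) (.v 1)) (.v 11))) (.mul (.mul (.mul (.mul (.mul (.c (Int.ofNat 918750)) (.v 0)) (.v 0)) (.v 1)) (.v 1)) (.v 10))))) (.mul (.v 6) (.add (.add (.add (.mul (.mul (.mul (.c (Int.negSucc 374999)) (.v 1)) (.v 1)) (.v 14)) (.mul (.mul (.mul (.c (Int.ofNat 375000)) (.v 1)) (.v 1)) (.v 12))) (.mul (.mul (.mul (.mul (.add (.mul .x (.c (Int.negSucc 749999))) (.c (Int.ofNat 1125000))) (.v 0)) (.v 1)) (.v 1)) (.v 11))) (.mul (.mul (.mul (.mul (.mul (.c (Int.ofNat 375000)) (.v 0)) (.v 0)) (.v 1)) (.v 1)) (.v 10)))))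

/-- a matrix entry -/
def a1_3_0 : E :=
  (.add (.add (.mul (.mul (.c (Int.ofNat 9375)) (.v 1)) (.v 44)) (.mul (.v 7) (.add (.add (.mul (.mul (.c (Int.negSucc 9374)) (.v 1)) (.v 14)) (.mul (.mul (.mul (.c (Int.negSucc 9374)) (.v 0)) (.v 1)) (.v 13))) (.mul (.mul (.c (Int.negSucc 2699999)) (.v 1)) (.v 12))))) (.mul (.v 6) (.mul (.mul (.c (Int.ofNat 834375)) (.v 1)) (.v 12))))

/-- a matrix entry -/
def a1_3_1 : E :=
  (.add (.add (.add (.add (.add (.mul (.mul (.c (Int.ofNat 9375)) (.v 1)) (.v 50)) (.mul (.mul (.c (Int.ofNat 9375)) (.v 1)) (.v 46))) (.mul (.mul (.c (Int.negSucc 9374)) (.v 1)) (.v 44))) (.mul (.mul (.mul (.c (Int.ofNat 9375)) (.v 0)) (.v 1)) (.v 43))) (.mul (.v 7) (.add (.add (.add (.mul (.mul (.c (Int.negSucc 168749)) (.v 1)) (.v 14)) (.mul (.mul (.mul (.c (Int.negSucc 168749)) (.v 0)) (.v 1)) (.v 13))) (.mul (.mul (.c (Int.negSucc 5399999))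 (.v 1)) (.v 12))) (.mul (.mul (.mul (.c (Int.negSucc 5399999)) (.v 0)) (.v 1)) (.v 11))))) (.mul (.v 6) (.add (.add (.add (.mul (.mul (.c (Int.negSucc 9374)) (.v 1)) (.v 14)) (.mul (.mul (.mul (.c (Int.negSucc 9374)) (.v 0)) (.v 1)) (.v 13))) (.mul (.mul (.c (Int.ofNat 1668750)) (.v 1)) (.v 12))) (.mul (.mul (.mul (.c (Int.ofNat 1668750)) (.v 0)) (.v 1)) (.v 11)))))

/-- a matrix entry -/
def a1_3_2 : E :=
  (.add (.add (.add (.add (.add (.mul (.mul (.mul (.c (Int.ofNat 9375)) (.v 1)) (.v 1)) (.v 52)) (.mul (.mul (.mul (.c (Int.ofNat 9375)) (.v 1)) (.v 1)) (.v 48))) (.mul (.mul (.mul (.c (Int.negSucc 9374)) (.v 1)) (.v 1)) (.v 46))) (.mul (.mul (.mul (.mul (.c (Int.ofNat 9375)) (.v 0)) (.v 1)) (.v 1)) (.v 45))) (.mul (.v 7) (.add (.add (.add (.add (.mul (.mul (.mul (.c (Int.ofNat 2240625)) (.v 1)) (.v 1)) (.v 14)) (.mul (.mul (.mul (.mul (.c (Int.negSucc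 459374)) (.v 0)) (.v 1)) (.v 1)) (.v 13))) (.mul (.mul (.mul (.c (Int.negSucc 2699999)) (.v 1)) (.v 1)) (.v 12))) (.mul (.mul (.mul (.mul (.add (.mul .x (.c (Int.ofNat 5400000))) (.c (Int.negSucc 8099999))) (.v 0)) (.v 1)) (.v 1)) (.v 11))) (.mul (.mul (.mul (.mul (.mul (.c (Int.negSucc 2699999)) (.v 0)) (.v 0)) (.v 1)) (.v 1)) (.v 10))))) (.mul (.v 6) (.add (.add (.add (.add (.mul (.mul (.mul (.c (Int.negSucc 1021874)) (.v 1)) (.v 1)) (.v 14)) (.mul (.mul (.mul (.mul (.c (Int.negSucc 187499)) (.v 0)) (.v 1)) (.v 1)) (.v 13))) (.mul (.mul (.mul (.c (Int.ofNat 834375)) (.v 1)) (.v 1)) (.v 12))) (.mul (.mul (.mul (.mul (.add (.mul .x (.c (Int.negSucc 1668749))) (.c (Int.ofNat 2503125))) (.v 0)) (.v 1)) (.v 1)) (.v 11))) (.mul (.mul (.mul (.mul (.mul (.c (Int.ofNat 834375)) (.v 0)) (.v 0)) (.v 1)) (.v 1)) (.v 10)))))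

/-- a matrix entry -/
def a1_3_3 : E :=
  (.add (.add (.add (.half 1 (.add (.add (.add (.add (.mul (.mul (.mul (.c (Int.ofNat 37500)) (.v 1)) (.v 1)) (.v 54)) (.mul (.mul (.mul (.c (Int.negSucc 18749)) (.v 1)) (.v 1)) (.v 48))) (.mul (.mul (.mul (.mul (.c (Int.ofNat 18750)) (.v 0)) (.v 1)) (.v 1)) (.v 47))) (.mul (.mul (.mul (.c (Int.ofNat 2109375)) .x) .x) (.v 14))) (.mul (.mul (.mul (.mul (.c (Int.negSucc 2109374)) (.v 0)) .x) .x) (.v 13)))) (.half 40 (.add (.mul .x (.add (.mul .x (.c (Int.negSucc 232959026135039))) (.c (Int.ofNat 2061584302080)))) (.c (Int.negSucc 1030792160414))))) (.mul (.v 7) (.add (.mul (.mul (.mul (.c (Int.ofNat 5400000)) (.v 1)) (.v 1)) (.v 14)) (.mul (.mul (.mul (.mul (.c (Int.ofNat 5400000)) (.v 0)) (.v 1)) (.v 1)) (.v 13))))) (.mul (.v 6) (.add (.mul (.mul (.mul (.c (Int.negSucc 1668749)) (.v 1)) (.v 1)) (.v 14)) (.mul (.mul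 (.mul (.mul (.c (Int.negSucc 1668749)) (.v 0)) (.v 1)) (.v 1)) (.v 13)))))

/-- a matrix entry -/
def a1_4_0 : E :=
  (.add (.add (.add (.mul (.mul (.c (Int.ofNat 9375)) (.v 1)) (.v 50)) (.mul (.v 7) (.add (.mul (.mul (.c (Int.ofNat 9375)) (.v 1)) (.v 16)) (.mul (.mul (.c (Int.ofNat 2062500)) (.v 1)) (.v 12))))) (.mul (.v 6) (.mul (.mul (.c (Int.negSucc 1031249)) (.v 1)) (.v 12)))) (.mul (.v 5) (.mul (.mul (.mul (.c (Int.negSucc 140624)) .x) .x) (.v 12))))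

/-- a matrix entry -/
def a1_4_1 : E :=
  (.add (.add (.add (.add (.add (.mul (.mul (.c (Int.ofNat 9375)) (.v 1)) (.v 52)) (.mul (.mul (.c (Int.negSucc 9374)) (.v 1)) (.v 50))) (.mul (.mul (.mul (.c (Int.ofNat 9375)) (.v 0)) (.v 1)) (.v 49))) (.mul (.v 7) (.add (.add (.mul (.mul (.c (Int.ofNat 168750)) (.v 1)) (.v 16)) (.mul (.mul (.c (Int.ofNat 4125000)) (.v 1)) (.v 12))) (.mul (.mul (.mul (.c (Int.ofNat 4125000)) (.v 0)) (.v 1)) (.v 11))))) (.mul (.v 6) (.add (.add (.mul (.mul (.c (Int.ofNat 9375)) (.v 1)) (.v 16)) (.mul (.mul (.c (Int.negSucc 2062499)) (.v 1)) (.v 12))) (.mul (.mul (.mul (.c (Int.negSucc 2062499)) (.v 0)) (.v 1)) (.v 11))))) (.mul (.v 5) (.add (.mul (.mul (.mul (.c (Int.negSucc 281249)) .x) .x) (.v 12)) (.mul (.mul (.mul (.mul (.c (Int.negSucc 281249)) (.v 0)) .x) .x) (.v 11)))))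

/-- a matrix entry -/
def a1_4_2 : E :=
  (.add (.add (.add (.add (.add (.mul (.mul (.mul (.c (Int.ofNat 9375)) (.v 1)) (.v 1)) (.v 54)) (.mul (.mul (.mul (.c (Int.negSucc 9374)) (.v 1)) (.v 1)) (.v 52))) (.mul (.mul (.mul (.mul (.c (Int.ofNat 9375)) (.v 0)) (.v 1)) (.v 1)) (.v 51))) (.mul (.v 7) (.add (.add (.add (.add (.mul (.mul (.mul (.c (Int.ofNat 459375)) (.v 1)) (.v 1)) (.v 16)) (.mul (.mul (.mul (.c (Int.negSucc 2062499)) (.v 1)) (.v 1)) (.v 14))) (.mul (.mul (.mul (.c (Int.ofNat 2062500)) (.v 1)) (.v 1)) (.v 12))) (.mul (.mul (.mul (.mul (.add (.mul .x (.c (Int.negSucc 4124999))) (.c (Int.ofNat 6187500))) (.v 0)) (.v 1)) (.v 1)) (.v 11))) (.mul (.mul (.mul (.mul (.mul (.c (Int.ofNat 2062500)) (.v 0)) (.v 0)) (.v 1)) (.v 1)) (.v 10))))) (.mul (.v 6) (.add (.add (.add (.add (.mul (.mul (.mul (.c (Int.ofNat 187500)) (.v 1)) (.v 1)) (.v 16)) (.mul (.mul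 (.mul (.c (Int.ofNat 1031250)) (.v 1)) (.v 1)) (.v 14))) (.mul (.mul (.mul (.c (Int.negSucc 1031249)) (.v 1)) (.v 1)) (.v 12))) (.mul (.mul (.mul (.mul (.add (.mul .x (.c (Int.ofNat 2062500))) (.c (Int.negSucc 3093749))) (.v 0)) (.v 1)) (.v 1)) (.v 11))) (.mul (.mul (.mul (.mul (.mul (.c (Int.negSucc 1031249)) (.v 0)) (.v 0)) (.v 1)) (.v 1)) (.v 10))))) (.mul (.v 5) (.add (.add (.add (.mul (.mul (.mul (.c (Int.ofNat 140625)) (.v 0)) .x) (.v 14)) (.mul (.mul (.mul (.c (Int.negSucc 140624)) (.v 0)) .x) (.v 12))) (.mul (.mul (.mul (.mul (.add (.mul .x (.c (Int.ofNat 281250))) (.c (Int.negSucc 421874))) (.v 0)) (.v 0)) .x) (.v 11))) (.mul (.mul (.mul (.mul (.mul (.c (Int.negSucc 140624)) (.v 0)) (.v 0)) (.v 0)) .x) (.v 10)))))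

/-- a matrix entry -/
def a1_4_3 : E :=
  (.add (.add (.add (.add (.add (.add (.mul (.mul (.c (Int.ofNat 140625)) (.v 0)) (.v 58)) (.mul (.mul (.mul (.c (Int.ofNat 9375)) (.v 1)) (.v 1)) (.v 56))) (.mul (.mul (.mul (.c (Int.negSucc 9374)) (.v 1)) (.v 1)) (.v 54))) (.mul (.mul (.mul (.mul (.c (Int.ofNat 9375)) (.v 0)) (.v 1)) (.v 1)) (.v 53))) (.mul (.v 7) (.add (.add (.mul (.mul (.mul (.c (Int.negSucc 2699999)) (.v 1)) (.v 1)) (.v 16)) (.mul (.mul (.mul (.c (Int.negSucc 2062499)) (.v 1)) (.v 1)) (.v 14))) (.mul (.mul (.mul (.mul (.c (Int.negSucc 2062499)) (.v 0)) (.v 1)) (.v 1)) (.v 13))))) (.mul (.v 6) (.add (.add (.mul (.mul (.mul (.c (Int.ofNat 834375)) (.v 1)) (.v 1)) (.v 16)) (.mul (.mul (.mul (.c (Int.ofNat 1031250)) (.v 1)) (.v 1)) (.v 14))) (.mul (.mul (.mul (.mul (.c (Int.ofNat 1031250)) (.v 0)) (.v 1)) (.v 1)) (.v 13))))) (.mul (.v 5) (.add (.mul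 (.mul (.mul (.c (Int.ofNat 140625)) (.v 0)) .x) (.v 14)) (.mul (.mul (.mul (.mul (.c (Int.ofNat 140625)) (.v 0)) (.v 0)) .x) (.v 13)))))

/-- a matrix entry -/
def a1_4_4 : E :=
  (.add (.add (.add (.add (.half 1 (.add (.add (.add (.add (.mul (.mul (.c (Int.ofNat 562500)) (.v 0)) (.v 60)) (.mul (.mul (.mul (.c (Int.negSucc 18749)) (.v 1)) (.v 1)) (.v 56))) (.mul (.mul (.mul (.mul (.c (Int.ofNat 18750)) (.v 0)) (.v 1)) (.v 1)) (.v 55))) (.mul (.mul (.mul (.c (Int.ofNat 2109375)) .x) .x) (.v 16))) (.mul (.mul (.mul (.mul (.c (Int.negSucc 2109374)) (.v 0)) .x) .x) (.v 15)))) (.half 40 (.add (.mul .x (.add (.mul .x (.c (Int.negSucc 232959026135039))) (.c (Int.ofNat 2061584302080)))) (.c (Int.negSucc 1030792160414))))) (.mul (.v 7) (.mul (.mul (.mul (.c (Int.ofNat 4125000)) (.v 1)) (.v 1)) (.v 16)))) (.mul (.v 6) (.mul (.mul (.mul (.c (Int.negSucc 2062499)) (.v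 1)) (.v 1)) (.v 16)))) (.mul (.v 5) (.mul (.mul (.mul (.c (Int.negSucc 281249)) (.v 0)) .x) (.v 16))))

/-- a matrix entry -/
def a1_5_0 : E :=
  (.mul (.v 4) (.mul (.mul (.c (Int.negSucc 9374)) .x) (.v 12)))

/-- a matrix entry -/
def a1_5_1 : E :=
  (.add (.mul (.v 7) (.mul (.mul (.c (Int.ofNat 625)) (.v 1)) (.v 18))) (.mul (.v 4) (.add (.mul (.mul (.c (Int.negSucc 18749)) .x) (.v 12)) (.mul (.mul (.mul (.c (Int.negSucc 18749)) (.v 0)) .x) (.v 11)))))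

/-- a matrix entry -/
def a1_5_2 : E :=
  (.add (.add (.mul (.mul (.c (Int.ofNat 9375)) (.v 1)) (.v 58)) (.mul (.v 7) (.mul (.mul (.mul (.c (Int.ofNat 12500)) (.v 1)) (.v 1)) (.v 18)))) (.mul (.v 4) (.add (.add (.add (.mul (.mul (.c (Int.ofNat 9375)) (.v 0)) (.v 14)) (.mul (.mul (.c (Int.negSucc 9374)) (.v 0)) (.v 12))) (.mul (.mul (.mul (.add (.mul .x (.c (Int.ofNat 18750))) (.c (Int.negSucc 28124))) (.v 0)) (.v 0)) (.v 11))) (.mul (.mul (.mul (.mul (.c (Int.negSucc 9374)) (.v 0)) (.v 0)) (.v 0)) (.v 10)))))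

/-- a matrix entry -/
def a1_5_3 : E :=
  (.add (.add (.add (.add (.add (.mul (.mul (.c (Int.ofNat 9375)) (.v 1)) (.v 60)) (.mul (.mul (.mul (.c (Int.ofNat 9375)) (.v 0)) (.v 1)) (.v 57))) (.mul (.v 7) (.mul (.mul (.mul (.c (Int.ofNat 55625)) (.v 1)) (.v 1)) (.v 18)))) (.mul (.v 4) (.add (.mul (.mul (.c (Int.ofNat 9375)) (.v 0)) (.v 14)) (.mul (.mul (.mul (.c (Int.ofNat 9375)) (.v 0)) (.v 0)) (.v 13))))) (.mul (.v 3) (.mul (.mul (.mul (.mul (.c (Int.ofNat 9375)) (.v 0)) (.v 0)) (.v 1)) (.v 26)))) (.mul (.v 2) (.mul (.mul (.mul (.mul (.c (Int.ofNat 9375)) (.v 0)) (.v 0)) (.v 1)) (.v 20))))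

/-- a matrix entry -/
def a1_5_4 : E :=
  (.add (.add (.add (.add (.add (.mul (.mul (.mul (.c (Int.ofNat 9375)) (.v 0)) (.v 1)) (.v 59)) (.mul (.mul (.c (Int.ofNat 140625)) (.v 0)) (.v 9))) (.mul (.v 7) (.mul (.mul (.mul (.c (Int.negSucc 68749)) (.v 1)) (.v 1)) (.v 18)))) (.mul (.v 4) (.mul (.mul (.c (Int.negSucc 9374)) (.v 0)) (.v 16)))) (.mul (.v 3) (.mul (.mul (.mul (.mul (.c (Int.ofNat 9375)) (.v 0)) (.v 0)) (.v 1)) (.v 28)))) (.mul (.v 2) (.mul (.mul (.mul (.mul (.c (Int.ofNat 9375)) (.v 0)) (.v 0)) (.v 1)) (.v 22))))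

/-- a matrix entry -/
def a1_5_5 : E :=
  (.add (.add (.add (.add (.half 1 (.add (.add (.add (.mul (.mul (.mul (.c (Int.ofNat 9375)) .x) .x) (.v 18)) (.mul (.mul (.mul (.c (Int.negSucc 9374)) (.v 0)) .x) (.v 17))) (.mul (.mul (.mul (.c (Int.ofNat 18750)) (.v 1)) (.v 1)) (.v 9))) (.mul (.mul (.mul (.c (Int.ofNat 18750)) (.v 0)) (.v 1)) (.v 8)))) (.half 40 (.c (Int.negSucc 1030792160414)))) (.mul (.v 5) (.mul (.mul (.c (Int.negSucc 1249)) (.v 0)) (.v 18)))) (.mul (.v 3) (.mul (.mul (.mul (.mul (.c (Int.ofNat 1250)) (.v 0)) (.v 1)) (.v 1)) (.v 30)))) (.mul (.v 2) (.mul (.mul (.mul (.mul (.c (Int.ofNat 1250)) (.v 0)) (.v 1)) (.v 1)) (.v 24))))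

/-- a matrix entry -/
def a1_6_0 : E :=
  (.c (Int.ofNat 0))

/-- a matrix entry -/
def a1_6_1 : E :=
  (.c (Int.ofNat 0))

/-- a matrix entry -/
def a1_6_2 : E :=
  (.mul (.mul (.c (Int.ofNat 140625)) (.v 0)) (.v 26))

/-- a matrix entry -/
def a1_6_3 : E :=
  (.add (.add (.mul (.mul (.c (Int.ofNat 140625)) (.v 0)) (.v 28)) (.mul (.mul (.add (.mul .x (.c (Int.negSucc 281249))) (.c (Int.ofNat 140625))) (.v 0)) (.v 26))) (.mul (.mul (.mul (.c (Int.ofNat 140625)) (.v 0)) (.v 0)) (.v 25)))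

/-- a matrix entry -/
def a1_6_4 : E :=
  (.add (.add (.mul (.mul (.c (Int.ofNat 140625)) (.v 0)) (.v 30)) (.mul (.mul (.add (.mul .x (.c (Int.negSucc 281249))) (.c (Int.ofNat 140625))) (.v 0)) (.v 28))) (.mul (.mul (.mul (.c (Int.ofNat 140625)) (.v 0)) (.v 0)) (.v 27)))

/-- a matrix entry -/
def a1_6_5 : E :=
  (.add (.add (.add (.mul (.mul (.add (.mul .x (.c (Int.negSucc 18749))) (.c (Int.ofNat 9375))) (.v 1)) (.v 30)) (.mul (.mul (.mul (.c (Int.ofNat 9375)) (.v 0)) (.v 1)) (.v 29))) (.mul (.v 3) (.mul (.mul (.c (Int.ofNat 9375)) (.v 1)) (.v 36)))) (.mul (.v 2) (.mul (.mul (.c (Int.ofNat 9375)) (.v 1)) (.v 34))))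

/-- a matrix entry -/
def a1_6_6 : E :=
  (.add (.mul (.c (Int.ofNat 140625)) (.v 35)) (.half 40 (.c (Int.negSucc 9374))))

/-- a matrix entry -/
def a1_7_0 : E :=
  (.c (Int.ofNat 0))

/-- a matrix entry -/
def a1_7_1 : E :=
  (.c (Int.ofNat 0))

/-- a matrix entry -/
def a1_7_2 : E :=
  (.mul (.mul (.c (Int.ofNat 140625)) (.v 0)) (.v 20))

/-- a matrix entry -/
def a1_7_3 : E :=
  (.add (.add (.mul (.mul (.c (Int.ofNat 140625)) (.v 0)) (.v 22)) (.mul (.mul (.add (.mul .x (.c (Int.negSucc 281249))) (.c (Int.ofNat 140625))) (.v 0)) (.v 20))) (.mul (.mul (.mul (.c (Int.ofNat 140625)) (.v 0)) (.v 0)) (.v 19)))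

/-- a matrix entry -/
def a1_7_4 : E :=
  (.add (.add (.mul (.mul (.c (Int.ofNat 140625)) (.v 0)) (.v 24)) (.mul (.mul (.add (.mul .x (.c (Int.negSucc 281249))) (.c (Int.ofNat 140625))) (.v 0)) (.v 22))) (.mul (.mul (.mul (.c (Int.ofNat 140625)) (.v 0)) (.v 0)) (.v 21)))

/-- a matrix entry -/
def a1_7_5 : E :=
  (.add (.add (.add (.mul (.mul (.add (.mul .x (.c (Int.negSucc 18749))) (.c (Int.ofNat 9375))) (.v 1)) (.v 24)) (.mul (.mul (.mul (.c (Int.ofNat 9375)) (.v 0)) (.v 1)) (.v 23))) (.mul (.v 3) (.mul (.mul (.c (Int.ofNat 9375)) (.v 1)) (.v 34)))) (.mul (.v 2) (.mul (.mul (.c (Int.ofNat 9375)) (.v 1)) (.v 32))))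

/-- a matrix entry -/
def a1_7_6 : E :=
  (.mul (.c (Int.ofNat 140625)) (.v 33))

/-- a matrix entry -/
def a1_7_7 : E :=
  (.add (.mul (.c (Int.ofNat 140625)) (.v 31)) (.half 40 (.c (Int.negSucc 9374))))

/-- the matrix -/
def tab1 : List (List E) :=
  [[a1_0_0],
  [a1_1_0, a1_1_1],
  [a1_2_0, a1_2_1, a1_2_2],
  [a1_3_0, a1_3_1, a1_3_2, a1_3_3],
  [a1_4_0, a1_4_1, a1_4_2, a1_4_3, a1_4_4],
  [a1_5_0, a1_5_1, a1_5_2, a1_5_3, a1_5_4, a1_5_5],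
  [a1_6_0, a1_6_1, a1_6_2, a1_6_3, a1_6_4, a1_6_5, a1_6_6],
  [a1_7_0, a1_7_1, a1_7_2, a1_7_3, a1_7_4, a1_7_5, a1_7_6, a1_7_7]]

/-- a matrix entry -/
def a2_0_0 : E :=
  (.add (.mul (.c (Int.ofNat 9375)) (.v 34)) (.half 40 (.c (Int.negSucc 1030792160414))))

/-- a matrix entry -/
def a2_1_0 : E :=
  (.mul (.mul (.c (Int.ofNat 9375)) (.v 1)) (.v 5))

/-- a matrix entry -/
def a2_1_1 : E :=
  (.add (.add (.add (.add (.mul (.c (Int.ofNat 9375)) (.v 35)) (.mul (.mul (.c (Int.ofNat 18750)) (.v 1)) (.v 7))) (.mul (.mul (.mul (.c (Int.ofNat 9375)) (.v 1)) (.v 1)) (.v 5))) (.mul (.mul (.mul (.c (Int.ofNat 9375)) (.v 0)) (.v 1)) (.v 4))) (.half 40 (.c (Int.negSucc 1030792160414))))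

/-- a matrix entry -/
def a2_2_0 : E :=
  (.mul (.mul (.c (Int.ofNat 9375)) (.v 1)) (.v 7))

/-- a matrix entry -/
def a2_2_1 : E :=
  (.add (.add (.add (.mul (.mul (.c (Int.ofNat 9375)) (.v 1)) (.v 11)) (.mul (.mul (.c (Int.ofNat 9375)) (.v 1)) (.v 9))) (.mul (.mul (.mul (.c (Int.ofNat 9375)) (.v 1)) (.v 1)) (.v 7))) (.mul (.mul (.mul (.c (Int.ofNat 9375)) (.v 0)) (.v 1)) (.v 6)))

/-- a matrix entry -/
def a2_2_2 : E :=
  (.add (.add (.add (.add (.mul (.c (Int.ofNat 9375)) (.v 36)) (.mul (.mul (.c (Int.ofNat 18750)) (.v 1)) (.v 13))) (.mul (.mul (.mul (.c (Int.ofNat 9375)) (.v 1)) (.v 1)) (.v 9))) (.mul (.mul (.mul (.c (Int.ofNat 9375)) (.v 0)) (.v 1)) (.v 8))) (.half 40 (.c (Int.negSucc 1030792160414))))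

/-- a matrix entry -/
def a2_3_0 : E :=
  (.mul (.mul (.c (Int.ofNat 9375)) (.v 1)) (.v 11))

/-- a matrix entry -/
def a2_3_1 : E :=
  (.add (.add (.add (.add (.mul (.mul (.c (Int.ofNat 9375)) (.v 1)) (.v 13)) (.mul (.mul (.mul (.c (Int.ofNat 9375)) (.v 1)) (.v 1)) (.v 11))) (.mul (.mul (.mul (.c (Int.ofNat 9375)) (.v 0)) (.v 1)) (.v 10))) (.mul (.v 3) (.mul (.mul (.mul (.mul (.c (Int.ofNat 625)) (.v 0)) (.v 1)) (.v 1)) (.v 23)))) (.mul (.v 2) (.mul (.mul (.mul (.mul (.c (Int.ofNat 625)) (.v 0)) (.v 1)) (.v 1)) (.v 17))))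

/-- a matrix entry -/
def a2_3_2 : E :=
  (.add (.add (.add (.add (.mul (.mul (.c (Int.ofNat 9375)) (.v 1)) (.v 15)) (.mul (.mul (.mul (.c (Int.ofNat 9375)) (.v 1)) (.v 1)) (.v 13))) (.mul (.mul (.mul (.c (Int.ofNat 9375)) (.v 0)) (.v 1)) (.v 12))) (.mul (.v 3) (.mul (.mul (.mul (.mul (.c (Int.ofNat 625)) (.v 0)) (.v 1)) (.v 1)) (.v 25)))) (.mul (.v 2) (.mul (.mul (.mul (.mul (.c (Int.ofNat 625)) (.v 0)) (.v 1)) (.v 1)) (.v 19))))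

/-- a matrix entry -/
def a2_3_3 : E :=
  (.add (.add (.add (.add (.add (.mul (.mul (.c (Int.ofNat 9375)) .x) (.v 37)) (.mul (.mul (.mul (.c (Int.ofNat 9375)) (.v 1)) (.v 1)) (.v 15))) (.mul (.mul (.mul (.c (Int.ofNat 9375)) (.v 0)) (.v 1)) (.v 14))) (.half 40 (.c (Int.negSucc 1030792160414)))) (.mul (.v 3) (.mul (.mul (.mul (.mul (.c (Int.ofNat 1250)) (.v 0)) (.v 1)) (.v 1)) (.v 27)))) (.mul (.v 2) (.mul (.mul (.mul (.mul (.c (Int.ofNat 1250)) (.v 0)) (.v 1)) (.v 1)) (.v 21))))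

/-- a matrix entry -/
def a2_4_0 : E :=
  (.mul (.mul (.c (Int.ofNat 9375)) (.v 1)) (.v 23))

/-- a matrix entry -/
def a2_4_1 : E :=
  (.add (.add (.mul (.mul (.c (Int.ofNat 9375)) (.v 1)) (.v 25)) (.mul (.mul (.add (.mul .x (.c (Int.negSucc 18749))) (.c (Int.ofNat 9375))) (.v 1)) (.v 23))) (.mul (.mul (.mul (.c (Int.ofNat 9375)) (.v 0)) (.v 1)) (.v 22)))

/-- a matrix entry -/
def a2_4_2 : E :=
  (.add (.add (.mul (.mul (.c (Int.ofNat 9375)) (.v 1)) (.v 27)) (.mul (.mul (.add (.mul .x (.c (Int.negSucc 18749))) (.c (Int.ofNat 9375))) (.v 1)) (.v 25))) (.mul (.mul (.mul (.c (Int.ofNat 9375)) (.v 0)) (.v 1)) (.v 24)))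

/-- a matrix entry -/
def a2_4_3 : E :=
  (.add (.add (.add (.mul (.mul (.add (.mul .x (.c (Int.negSucc 18749))) (.c (Int.ofNat 9375))) (.v 1)) (.v 27)) (.mul (.mul (.mul (.c (Int.ofNat 9375)) (.v 0)) (.v 1)) (.v 26))) (.mul (.v 3) (.mul (.mul (.c (Int.ofNat 9375)) (.v 1)) (.v 33)))) (.mul (.v 2) (.mul (.mul (.c (Int.ofNat 9375)) (.v 1)) (.v 31))))

/-- a matrix entry -/
def a2_4_4 : E :=
  (.add (.mul (.c (Int.ofNat 140625)) (.v 32)) (.half 40 (.c (Int.negSucc 9374))))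

/-- a matrix entry -/
def a2_5_0 : E :=
  (.mul (.mul (.c (Int.ofNat 9375)) (.v 1)) (.v 17))

/-- a matrix entry -/
def a2_5_1 : E :=
  (.add (.add (.mul (.mul (.c (Int.ofNat 9375)) (.v 1)) (.v 19)) (.mul (.mul (.add (.mul .x (.c (Int.negSucc 18749))) (.c (Int.ofNat 9375))) (.v 1)) (.v 17))) (.mul (.mul (.mul (.c (Int.ofNat 9375)) (.v 0)) (.v 1)) (.v 16)))

/-- a matrix entry -/
def a2_5_2 : E :=
  (.add (.add (.mul (.mul (.c (Int.ofNat 9375)) (.v 1)) (.v 21)) (.mul (.mul (.add (.mul .x (.c (Int.negSucc 18749))) (.c (Int.ofNat 9375))) (.v 1)) (.v 19))) (.mul (.mul (.mul (.c (Int.ofNat 9375)) (.v 0)) (.v 1)) (.v 18)))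

/-- a matrix entry -/
def a2_5_3 : E :=
  (.add (.add (.add (.mul (.mul (.add (.mul .x (.c (Int.negSucc 18749))) (.c (Int.ofNat 9375))) (.v 1)) (.v 21)) (.mul (.mul (.mul (.c (Int.ofNat 9375)) (.v 0)) (.v 1)) (.v 20))) (.mul (.v 3) (.mul (.mul (.c (Int.ofNat 9375)) (.v 1)) (.v 31)))) (.mul (.v 2) (.mul (.mul (.c (Int.ofNat 9375)) (.v 1)) (.v 29))))

/-- a matrix entry -/
def a2_5_4 : E :=
  (.mul (.c (Int.ofNat 140625)) (.v 30))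

/-- a matrix entry -/
def a2_5_5 : E :=
  (.add (.mul (.c (Int.ofNat 140625)) (.v 28)) (.half 40 (.c (Int.negSucc 9374))))

/-- the matrix -/
def tab2 : List (List E) :=
  [[a2_0_0],
  [a2_1_0, a2_1_1],
  [a2_2_0, a2_2_1, a2_2_2],
  [a2_3_0, a2_3_1, a2_3_2, a2_3_3],
  [a2_4_0, a2_4_1, a2_4_2, a2_4_3, a2_4_4],
  [a2_5_0, a2_5_1, a2_5_2, a2_5_3, a2_5_4, a2_5_5]]

end Vale.Agent.P264.Ck
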