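import Vale.Agent.P264.Data
import Vale.Agent.P264.CkS
import Vale.Agent.P264.CkT

/-! The matrices of `CkT` represent the quadratic forms. -/

open Set Polynomial

noncomputable section

namespace Vale.Agent.P264.Ck

open Fl

set_option linter.unusedSimpArgs false

/-- the polynomials in the order in which they are computed -/
def ps1 (d : Data) : List ℝ[X] :=
  [d.pC 1,
    derivative (d.pC 1),
    d.pC 2,
    derivative (d.pC 2),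
    d.pD 1 1,
    derivative (d.pD 1 1),
    d.pD 1 2,
    derivative (d.pD 1 2),
    d.pD 1 3,
    derivative (d.pD 1 3),
    d.pD 1 4,
    derivative (d.pD 1 4),
    d.pD 2 2,
    derivative (d.pD 2 2),
    d.pD 2 3,
    derivative (d.pD 2 3),
    d.pD 2 4,
    derivative (d.pD 2 4),
    d.pD 3 3,
    derivative (d.pD 3 3),
    d.pD 3 4,
    derivative (d.pD 3 4),
    d.pD 4 4,
    derivative (d.pD 4 4),
    d.P 0 0,
    derivative (d.P 0 0),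
    d.P 0 1,
    derivative (d.P 0 1),
    d.P 1 1,
    derivative (d.P 1 1),
    d.R 0 0,
    derivative (d.R 0 0),
    d.R 0 1,
    derivative (d.R 0 1),
    d.R 0 2,
    derivative (d.R 0 2),
    d.R 1 0,
    derivative (d.R 1 0),
    d.R 1 1,
    derivative (d.R 1 1),
    d.R 1 2,
    derivative (d.R 1 2),
    d.m 0,
    derivative (d.m 0),
    d.m 1,
    derivative (d.m 1),
    d.m 2,
    derivative (d.m 2),
    d.m 3,
    derivative (d.m 3),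
    derivative (derivative (d.m 3)),
    d.q00,
    derivative (d.q00),
    inn (d.chi ^ 2),
    inn (D (d.chi ^ 2)),
    inn (y * d.V),
    inn (y * Dy 2 d.V),
    inn (d.zeta 0),
    inn (d.zeta 1),
    1 - X,
    X * (1 - X)]

/-- the polynomials in the order in which they are computed -/
def ps2 (d : Data) : List ℝ[X] :=
  [d.m 0,
    d.m 1,
    d.m 2,
    d.m 3,
    d.P2 0 0,
    derivative (d.P2 0 0),
    d.P2 0 1,
    derivative (d.P2 0 1),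
    d.P2 1 1,
    derivative (d.P2 1 1),
    d.R2 0 0,
    derivative (d.R2 0 0),
    d.R2 0 1,
    derivative (d.R2 0 1),
    d.R2 0 2,
    derivative (d.R2 0 2),
    d.R2 1 0,
    derivative (d.R2 1 0),
    d.R2 1 1,
    derivative (d.R2 1 1),
    d.R2 1 2,
    derivative (d.R2 1 2),
    d.t2 0 0,
    derivative (d.t2 0 0),
    d.t2 0 1,
    derivative (d.t2 0 1),
    d.t2 0 2,
    derivative (d.t2 0 2),
    d.t2 1 1,
    derivative (d.t2 1 1),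
    d.t2 1 2,
    derivative (d.t2 1 2),
    d.t2 2 2,
    derivative (d.t2 2 2),
    inn (d.zeta 0),
    inn (d.zeta 1),
    1 - X,
    X * (1 - X)]

theorem r1_0 (d : Data) : nth 0 ((ps1 d).reverse ++ []) 0 = X * (1 - X) := rfl

theorem r1_1 (d : Data) : nth 0 ((ps1 d).reverse ++ []) 1 = 1 - X := rfl

theorem r1_2 (d : Data) : nth 0 ((ps1 d).reverse ++ []) 2 = inn (d.zeta 1) := rfl

theorem r1_3 (d : Data) : nth 0 ((ps1 d).reverse ++ []) 3 = inn (d.zeta 0) := rfl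

theorem r1_4 (d : Data) : nth 0 ((ps1 d).reverse ++ []) 4 = inn (y * Dy 2 d.V) := rfl

theorem r1_5 (d : Data) : nth 0 ((ps1 d).reverse ++ []) 5 = inn (y * d.V) := rfl

theorem r1_6 (d : Data) : nth 0 ((ps1 d).reverse ++ []) 6 = inn (D (d.chi ^ 2)) := rfl

theorem r1_7 (d : Data) : nth 0 ((ps1 d).reverse ++ []) 7 = inn (d.chi ^ 2) := rfl

theorem r1_8 (d : Data) : nth 0 ((ps1 d).reverse ++ []) 8 = derivative (d.q00) := rfl

theorem r1_9 (d : Data) : nth 0 ((ps1 d).reverse ++ []) 9 = d.q00 := rfl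

theorem r1_10 (d : Data) : nth 0 ((ps1 d).reverse ++ []) 10 = derivative (derivative (d.m 3)) := rfl

theorem r1_11 (d : Data) : nth 0 ((ps1 d).reverse ++ []) 11 = derivative (d.m 3) := rfl

theorem r1_12 (d : Data) : nth 0 ((ps1 d).reverse ++ []) 12 = d.m 3 := rfl

theorem r1_13 (d : Data) : nth 0 ((ps1 d).reverse ++ []) 13 = derivative (d.m 2) := rfl

theorem r1_14 (d : Data) : nth 0 ((ps1 d).reverse ++ []) 14 = d.m 2 := rfl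

theorem r1_15 (d : Data) : nth 0 ((ps1 d).reverse ++ []) 15 = derivative (d.m 1) := rfl

theorem r1_16 (d : Data) : nth 0 ((ps1 d).reverse ++ []) 16 = d.m 1 := rfl

theorem r1_17 (d : Data) : nth 0 ((ps1 d).reverse ++ []) 17 = derivative (d.m 0) := rfl

theorem r1_18 (d : Data) : nth 0 ((ps1 d).reverse ++ []) 18 = d.m 0 := rfl

theorem r1_19 (d : Data) : nth 0 ((ps1 d).reverse ++ []) 19 = derivative (d.R 1 2) := rfl

theorem r1_20 (d : Data) : nth 0 ((ps1 d).reverse ++ []) 20 = d.R 1 2 := rfl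

theorem r1_21 (d : Data) : nth 0 ((ps1 d).reverse ++ []) 21 = derivative (d.R 1 1) := rfl

theorem r1_22 (d : Data) : nth 0 ((ps1 d).reverse ++ []) 22 = d.R 1 1 := rfl

theorem r1_23 (d : Data) : nth 0 ((ps1 d).reverse ++ []) 23 = derivative (d.R 1 0) := rfl

theorem r1_24 (d : Data) : nth 0 ((ps1 d).reverse ++ []) 24 = d.R 1 0 := rfl

theorem r1_25 (d : Data) : nth 0 ((ps1 d).reverse ++ []) 25 = derivative (d.R 0 2) := rfl

theorem r1_26 (d : Data) : nth 0 ((ps1 d).reverse ++ []) 26 = d.R 0 2 := rfl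

theorem r1_27 (d : Data) : nth 0 ((ps1 d).reverse ++ []) 27 = derivative (d.R 0 1) := rfl

theorem r1_28 (d : Data) : nth 0 ((ps1 d).reverse ++ []) 28 = d.R 0 1 := rfl

theorem r1_29 (d : Data) : nth 0 ((ps1 d).reverse ++ []) 29 = derivative (d.R 0 0) := rfl

theorem r1_30 (d : Data) : nth 0 ((ps1 d).reverse ++ []) 30 = d.R 0 0 := rfl

theorem r1_31 (d : Data) : nth 0 ((ps1 d).reverse ++ []) 31 = derivative (d.P 1 1) := rfl

theorem r1_32 (d : Data) : nth 0 ((ps1 d).reverse ++ []) 32 = d.P 1 1 := rfl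

theorem r1_33 (d : Data) : nth 0 ((ps1 d).reverse ++ []) 33 = derivative (d.P 0 1) := rfl

theorem r1_34 (d : Data) : nth 0 ((ps1 d).reverse ++ []) 34 = d.P 0 1 := rfl

theorem r1_35 (d : Data) : nth 0 ((ps1 d).reverse ++ []) 35 = derivative (d.P 0 0) := rfl

theorem r1_36 (d : Data) : nth 0 ((ps1 d).reverse ++ []) 36 = d.P 0 0 := rfl

theorem r1_37 (d : Data) : nth 0 ((ps1 d).reverse ++ []) 37 = derivative (d.pD 4 4) := rfl

theorem r1_38 (d : Data) : nth 0 ((ps1 d).reverse ++ []) 38 = d.pD 4 4 := rfl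

theorem r1_39 (d : Data) : nth 0 ((ps1 d).reverse ++ []) 39 = derivative (d.pD 3 4) := rfl

theorem r1_40 (d : Data) : nth 0 ((ps1 d).reverse ++ []) 40 = d.pD 3 4 := rfl

theorem r1_41 (d : Data) : nth 0 ((ps1 d).reverse ++ []) 41 = derivative (d.pD 3 3) := rfl

theorem r1_42 (d : Data) : nth 0 ((ps1 d).reverse ++ []) 42 = d.pD 3 3 := rfl

theorem r1_43 (d : Data) : nth 0 ((ps1 d).reverse ++ []) 43 = derivative (d.pD 2 4) := rfl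

theorem r1_44 (d : Data) : nth 0 ((ps1 d).reverse ++ []) 44 = d.pD 2 4 := rfl

theorem r1_45 (d : Data) : nth 0 ((ps1 d).reverse ++ []) 45 = derivative (d.pD 2 3) := rfl

theorem r1_46 (d : Data) : nth 0 ((ps1 d).reverse ++ []) 46 = d.pD 2 3 := rfl

theorem r1_47 (d : Data) : nth 0 ((ps1 d).reverse ++ []) 47 = derivative (d.pD 2 2) := rfl

theorem r1_48 (d : Data) : nth 0 ((ps1 d).reverse ++ []) 48 = d.pD 2 2 := rfl

theorem r1_49 (d : Data) : nth 0 ((ps1 d).reverse ++ []) 49 = derivative (d.pD 1 4) := rfl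

theorem r1_50 (d : Data) : nth 0 ((ps1 d).reverse ++ []) 50 = d.pD 1 4 := rfl

theorem r1_51 (d : Data) : nth 0 ((ps1 d).reverse ++ []) 51 = derivative (d.pD 1 3) := rfl

theorem r1_52 (d : Data) : nth 0 ((ps1 d).reverse ++ []) 52 = d.pD 1 3 := rfl

theorem r1_53 (d : Data) : nth 0 ((ps1 d).reverse ++ []) 53 = derivative (d.pD 1 2) := rfl

theorem r1_54 (d : Data) : nth 0 ((ps1 d).reverse ++ []) 54 = d.pD 1 2 := rfl

theorem r1_55 (d : Data) : nth 0 ((ps1 d).reverse ++ []) 55 = derivative (d.pD 1 1) := rfl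

theorem r1_56 (d : Data) : nth 0 ((ps1 d).reverse ++ []) 56 = d.pD 1 1 := rfl

theorem r1_57 (d : Data) : nth 0 ((ps1 d).reverse ++ []) 57 = derivative (d.pC 2) := rfl

theorem r1_58 (d : Data) : nth 0 ((ps1 d).reverse ++ []) 58 = d.pC 2 := rfl

theorem r1_59 (d : Data) : nth 0 ((ps1 d).reverse ++ []) 59 = derivative (d.pC 1) := rfl

theorem r1_60 (d : Data) : nth 0 ((ps1 d).reverse ++ []) 60 = d.pC 1 := rfl

theorem s1_0_0 : sy (nth2 (E.c (Int.ofNat 0)) tab1) 0 0 = a1_0_0 := rfl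

theorem s1_0_1 : sy (nth2 (E.c (Int.ofNat 0)) tab1) 0 1 = a1_1_0 := rfl

theorem s1_0_2 : sy (nth2 (E.c (Int.ofNat 0)) tab1) 0 2 = a1_2_0 := rfl

theorem s1_0_3 : sy (nth2 (E.c (Int.ofNat 0)) tab1) 0 3 = a1_3_0 := rfl

theorem s1_0_4 : sy (nth2 (E.c (Int.ofNat 0)) tab1) 0 4 = a1_4_0 := rfl

theorem s1_0_5 : sy (nth2 (E.c (Int.ofNat 0)) tab1) 0 5 = a1_5_0 := rfl

theorem s1_0_6 : sy (nth2 (E.c (Int.ofNat 0)) tab1) 0 6 = a1_6_0 := rfl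

theorem s1_0_7 : sy (nth2 (E.c (Int.ofNat 0)) tab1) 0 7 = a1_7_0 := rfl

theorem s1_1_0 : sy (nth2 (E.c (Int.ofNat 0)) tab1) 1 0 = a1_1_0 := rfl

theorem s1_1_1 : sy (nth2 (E.c (Int.ofNat 0)) tab1) 1 1 = a1_1_1 := rfl

theorem s1_1_2 : sy (nth2 (E.c (Int.ofNat 0)) tab1) 1 2 = a1_2_1 := rfl

theorem s1_1_3 : sy (nth2 (E.c (Int.ofNat 0)) tab1) 1 3 = a1_3_1 := rfl

theorem s1_1_4 : sy (nth2 (E.c (Int.ofNat 0)) tab1) 1 4 = a1_4_1 := rfl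

theorem s1_1_5 : sy (nth2 (E.c (Int.ofNat 0)) tab1) 1 5 = a1_5_1 := rfl

theorem s1_1_6 : sy (nth2 (E.c (Int.ofNat 0)) tab1) 1 6 = a1_6_1 := rfl

theorem s1_1_7 : sy (nth2 (E.c (Int.ofNat 0)) tab1) 1 7 = a1_7_1 := rfl

theorem s1_2_0 : sy (nth2 (E.c (Int.ofNat 0)) tab1) 2 0 = a1_2_0 := rfl

theorem s1_2_1 : sy (nth2 (E.c (Int.ofNat 0)) tab1) 2 1 = a1_2_1 := rfl

theorem s1_2_2 : sy (nth2 (E.c (Int.ofNat 0)) tab1) 2 2 = a1_2_2 := rfl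

theorem s1_2_3 : sy (nth2 (E.c (Int.ofNat 0)) tab1) 2 3 = a1_3_2 := rfl

theorem s1_2_4 : sy (nth2 (E.c (Int.ofNat 0)) tab1) 2 4 = a1_4_2 := rfl

theorem s1_2_5 : sy (nth2 (E.c (Int.ofNat 0)) tab1) 2 5 = a1_5_2 := rfl

theorem s1_2_6 : sy (nth2 (E.c (Int.ofNat 0)) tab1) 2 6 = a1_6_2 := rfl

theorem s1_2_7 : sy (nth2 (E.c (Int.ofNat 0)) tab1) 2 7 = a1_7_2 := rfl

theorem s1_3_0 : sy (nth2 (E.c (Int.ofNat 0)) tab1) 3 0 = a1_3_0 := rfl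

theorem s1_3_1 : sy (nth2 (E.c (Int.ofNat 0)) tab1) 3 1 = a1_3_1 := rfl

theorem s1_3_2 : sy (nth2 (E.c (Int.ofNat 0)) tab1) 3 2 = a1_3_2 := rfl

theorem s1_3_3 : sy (nth2 (E.c (Int.ofNat 0)) tab1) 3 3 = a1_3_3 := rfl

theorem s1_3_4 : sy (nth2 (E.c (Int.ofNat 0)) tab1) 3 4 = a1_4_3 := rfl

theorem s1_3_5 : sy (nth2 (E.c (Int.ofNat 0)) tab1) 3 5 = a1_5_3 := rfl

theorem s1_3_6 : sy (nth2 (E.c (Int.ofNat 0)) tab1) 3 6 = a1_6_3 := rfl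

theorem s1_3_7 : sy (nth2 (E.c (Int.ofNat 0)) tab1) 3 7 = a1_7_3 := rfl

theorem s1_4_0 : sy (nth2 (E.c (Int.ofNat 0)) tab1) 4 0 = a1_4_0 := rfl

theorem s1_4_1 : sy (nth2 (E.c (Int.ofNat 0)) tab1) 4 1 = a1_4_1 := rfl

theorem s1_4_2 : sy (nth2 (E.c (Int.ofNat 0)) tab1) 4 2 = a1_4_2 := rfl

theorem s1_4_3 : sy (nth2 (E.c (Int.ofNat 0)) tab1) 4 3 = a1_4_3 := rfl

theorem s1_4_4 : sy (nth2 (E.c (Int.ofNat 0)) tab1) 4 4 = a1_4_4 := rfl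

theorem s1_4_5 : sy (nth2 (E.c (Int.ofNat 0)) tab1) 4 5 = a1_5_4 := rfl

theorem s1_4_6 : sy (nth2 (E.c (Int.ofNat 0)) tab1) 4 6 = a1_6_4 := rfl

theorem s1_4_7 : sy (nth2 (E.c (Int.ofNat 0)) tab1) 4 7 = a1_7_4 := rfl

theorem s1_5_0 : sy (nth2 (E.c (Int.ofNat 0)) tab1) 5 0 = a1_5_0 := rfl

theorem s1_5_1 : sy (nth2 (E.c (Int.ofNat 0)) tab1) 5 1 = a1_5_1 := rfl

theorem s1_5_2 : sy (nth2 (E.c (Int.ofNat 0)) tab1) 5 2 = a1_5_2 := rfl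

theorem s1_5_3 : sy (nth2 (E.c (Int.ofNat 0)) tab1) 5 3 = a1_5_3 := rfl

theorem s1_5_4 : sy (nth2 (E.c (Int.ofNat 0)) tab1) 5 4 = a1_5_4 := rfl

theorem s1_5_5 : sy (nth2 (E.c (Int.ofNat 0)) tab1) 5 5 = a1_5_5 := rfl

theorem s1_5_6 : sy (nth2 (E.c (Int.ofNat 0)) tab1) 5 6 = a1_6_5 := rfl

theorem s1_5_7 : sy (nth2 (E.c (Int.ofNat 0)) tab1) 5 7 = a1_7_5 := rfl

theorem s1_6_0 : sy (nth2 (E.c (Int.ofNat 0)) tab1) 6 0 = a1_6_0 := rfl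

theorem s1_6_1 : sy (nth2 (E.c (Int.ofNat 0)) tab1) 6 1 = a1_6_1 := rfl

theorem s1_6_2 : sy (nth2 (E.c (Int.ofNat 0)) tab1) 6 2 = a1_6_2 := rfl

theorem s1_6_3 : sy (nth2 (E.c (Int.ofNat 0)) tab1) 6 3 = a1_6_3 := rfl

theorem s1_6_4 : sy (nth2 (E.c (Int.ofNat 0)) tab1) 6 4 = a1_6_4 := rfl

theorem s1_6_5 : sy (nth2 (E.c (Int.ofNat 0)) tab1) 6 5 = a1_6_5 := rfl

theorem s1_6_6 : sy (nth2 (E.c (Int.ofNat 0)) tab1) 6 6 = a1_6_6 := rfl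

theorem s1_6_7 : sy (nth2 (E.c (Int.ofNat 0)) tab1) 6 7 = a1_7_6 := rfl

theorem s1_7_0 : sy (nth2 (E.c (Int.ofNat 0)) tab1) 7 0 = a1_7_0 := rfl

theorem s1_7_1 : sy (nth2 (E.c (Int.ofNat 0)) tab1) 7 1 = a1_7_1 := rfl

theorem s1_7_2 : sy (nth2 (E.c (Int.ofNat 0)) tab1) 7 2 = a1_7_2 := rfl

theorem s1_7_3 : sy (nth2 (E.c (Int.ofNat 0)) tab1) 7 3 = a1_7_3 := rfl

theorem s1_7_4 : sy (nth2 (E.c (Int.ofNat 0)) tab1) 7 4 = a1_7_4 := rfl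

theorem s1_7_5 : sy (nth2 (E.c (Int.ofNat 0)) tab1) 7 5 = a1_7_5 := rfl

theorem s1_7_6 : sy (nth2 (E.c (Int.ofNat 0)) tab1) 7 6 = a1_7_6 := rfl

theorem s1_7_7 : sy (nth2 (E.c (Int.ofNat 0)) tab1) 7 7 = a1_7_7 := rfl

set_option maxHeartbeats 4000000 in
set_option maxRecDepth 100000 in
theorem link1 (d : Data) (a : ℝ) (G M J z : ℕ → ℝ)
    (h : ∀ j, 1 ≤ j → j ≤ 3 → G j = 15 * a * z j ∧ M j = (1 - a) * z j) :
    ∑ i ∈ Finset.range 8, ∑ j ∈ Finset.range 8,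
      (den ((ps1 d).reverse ++ []) (sy (nth2 (E.c (Int.ofNat 0)) tab1) i j)).eval a *
        nth 0 [M 5, M 4, z 3, z 2, z 1, G 0, J 0, J 1] i *
        nth 0 [M 5, M 4, z 3, z 2, z 1, G 0, J 0, J 1] j =
      9375 * (d.F1 (ev a 0 0) G M J 0 - (1 / 10 ^ 4 * (nG G + nM M) + 1 / 2 ^ 40 *
        (G 0 ^ 2 + z 1 ^ 2 + z 2 ^ 2 + z 3 ^ 2 + M 4 ^ 2 + M 5 ^ 2 + J 0 ^ 2 + J 1 ^ 2))) := by
  obtain ⟨g1, m1⟩ := h 1 (by norm_num) (by norm_num)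
  obtain ⟨g2, m2⟩ := h 2 (by norm_num) (by norm_num)
  obtain ⟨g3, m3⟩ := h 3 (by norm_num) (by norm_num)
  simp only [Finset.sum_range_succ, Finset.range_zero, Finset.sum_empty, zero_add,
    s1_0_0, s1_0_1, s1_0_2, s1_0_3, s1_0_4, s1_0_5, s1_0_6, s1_0_7, s1_1_0, s1_1_1, s1_1_2, s1_1_3, s1_1_4, s1_1_5, s1_1_6, s1_1_7, s1_2_0, s1_2_1, s1_2_2, s1_2_3, s1_2_4, s1_2_5, s1_2_6, s1_2_7, s1_3_0, s1_3_1, s1_3_2, s1_3_3, s1_3_4, s1_3_5, s1_3_6, s1_3_7, s1_4_0, s1_4_1, s1_4_2, s1_4_3, s1_4_4, s1_4_5, s1_4_6, s1_4_7, s1_5_0, s1_5_1, s1_5_2, s1_5_3, s1_5_4, s1_5_5, s1_5_6, s1_5_7, s1_6_0, s1_6_1, s1_6_2, s1_6_3, s1_6_4, s1_6_5, s1_6_6, s1_6_7, s1_7_0, s1_7_1, s1_7_2, s1_7_3, s1_7_4, s1_7_5, s1_7_6, s1_7_7]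
  simp only [a1_0_0, a1_1_0, a1_1_1, a1_2_0, a1_2_1, a1_2_2, a1_3_0, a1_3_1, a1_3_2, a1_3_3, a1_4_0, a1_4_1, a1_4_2, a1_4_3, a1_4_4, a1_5_0, a1_5_1, a1_5_2, a1_5_3, a1_5_4, a1_5_5, a1_6_0, a1_6_1, a1_6_2, a1_6_3, a1_6_4, a1_6_5, a1_6_6, a1_7_0, a1_7_1, a1_7_2, a1_7_3, a1_7_4, a1_7_5, a1_7_6, a1_7_7,
    den, r1_0, r1_1, r1_2, r1_3, r1_4, r1_5, r1_6, r1_7, r1_8, r1_9, r1_10, r1_11, r1_12, r1_13, r1_14, r1_15, r1_16, r1_17, r1_18, r1_19, r1_20, r1_21, r1_22, r1_23, r1_24, r1_25, r1_26, r1_27, r1_28, r1_29, r1_30, r1_31, r1_32, r1_33, r1_34, r1_35, r1_36, r1_37, r1_38, r1_39, r1_40, r1_41, r1_42, r1_43, r1_44, r1_45, r1_46, r1_47, r1_48, r1_49, r1_50, r1_51, r1_52, r1_53, r1_54, r1_55, r1_56, r1_57, r1_58, r1_59, r1_60]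
  simp only [Data.F1, Data.F0, Data.L0, Data.L1, Data.Bt, Data.IT, tT, tC, tD, tR, tP, YK, SK, RK,
    nG, nM, Nat.reduceAdd, g1, g2, g3, m1, m2, m3, ev_inn]
  simp only [map_mul inn y, map_mul inn _ d.V]
  generalize inn (d.chi ^ 2) = b0
  generalize inn (D (d.chi ^ 2)) = b1
  generalize inn (Dy 2 d.V) = b3
  generalize inn d.V = b2
  simp only [Data.mm, Data.pDf, sh, Dy, cK, map_add, map_sub, map_mul, map_neg, map_pow, map_ofNat, map_one,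
    inn_x, inn_t, inn_l, inn_c, inn_px, inn_y, inn_e, inn_a', inn_D, inn_dot, map_natCast,
    derivative_mul, derivative_X, derivative_one, derivative_C, derivative_ofNat,
    derivative_zero, map_zero, derivative_pow,
    eval_add, eval_sub, eval_mul, eval_neg, eval_pow, eval_ofNat, eval_one, eval_zero, eval_X, eval_C,
    eval_natCast, nth_zero, nth_succ, Int.ofNat_eq_natCast, Int.cast_natCast, Int.cast_negSucc]
  push_cast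
  ring

theorem r2_0 (d : Data) : nth 0 ((ps2 d).reverse ++ []) 0 = X * (1 - X) := rfl

theorem r2_1 (d : Data) : nth 0 ((ps2 d).reverse ++ []) 1 = 1 - X := rfl

theorem r2_2 (d : Data) : nth 0 ((ps2 d).reverse ++ []) 2 = inn (d.zeta 1) := rfl

theorem r2_3 (d : Data) : nth 0 ((ps2 d).reverse ++ []) 3 = inn (d.zeta 0) := rfl

theorem r2_4 (d : Data) : nth 0 ((ps2 d).reverse ++ []) 4 = derivative (d.t2 2 2) := rfl

theorem r2_5 (d : Data) : nth 0 ((ps2 d).reverse ++ []) 5 = d.t2 2 2 := rfl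

theorem r2_6 (d : Data) : nth 0 ((ps2 d).reverse ++ []) 6 = derivative (d.t2 1 2) := rfl

theorem r2_7 (d : Data) : nth 0 ((ps2 d).reverse ++ []) 7 = d.t2 1 2 := rfl

theorem r2_8 (d : Data) : nth 0 ((ps2 d).reverse ++ []) 8 = derivative (d.t2 1 1) := rfl

theorem r2_9 (d : Data) : nth 0 ((ps2 d).reverse ++ []) 9 = d.t2 1 1 := rfl

theorem r2_10 (d : Data) : nth 0 ((ps2 d).reverse ++ []) 10 = derivative (d.t2 0 2) := rfl

theorem r2_11 (d : Data) : nth 0 ((ps2 d).reverse ++ []) 11 = d.t2 0 2 := rfl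

theorem r2_12 (d : Data) : nth 0 ((ps2 d).reverse ++ []) 12 = derivative (d.t2 0 1) := rfl

theorem r2_13 (d : Data) : nth 0 ((ps2 d).reverse ++ []) 13 = d.t2 0 1 := rfl

theorem r2_14 (d : Data) : nth 0 ((ps2 d).reverse ++ []) 14 = derivative (d.t2 0 0) := rfl

theorem r2_15 (d : Data) : nth 0 ((ps2 d).reverse ++ []) 15 = d.t2 0 0 := rfl

theorem r2_16 (d : Data) : nth 0 ((ps2 d).reverse ++ []) 16 = derivative (d.R2 1 2) := rfl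

theorem r2_17 (d : Data) : nth 0 ((ps2 d).reverse ++ []) 17 = d.R2 1 2 := rfl

theorem r2_18 (d : Data) : nth 0 ((ps2 d).reverse ++ []) 18 = derivative (d.R2 1 1) := rfl

theorem r2_19 (d : Data) : nth 0 ((ps2 d).reverse ++ []) 19 = d.R2 1 1 := rfl

theorem r2_20 (d : Data) : nth 0 ((ps2 d).reverse ++ []) 20 = derivative (d.R2 1 0) := rfl

theorem r2_21 (d : Data) : nth 0 ((ps2 d).reverse ++ []) 21 = d.R2 1 0 := rfl

theorem r2_22 (d : Data) : nth 0 ((ps2 d).reverse ++ []) 22 = derivative (d.R2 0 2) := rfl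

theorem r2_23 (d : Data) : nth 0 ((ps2 d).reverse ++ []) 23 = d.R2 0 2 := rfl

theorem r2_24 (d : Data) : nth 0 ((ps2 d).reverse ++ []) 24 = derivative (d.R2 0 1) := rfl

theorem r2_25 (d : Data) : nth 0 ((ps2 d).reverse ++ []) 25 = d.R2 0 1 := rfl

theorem r2_26 (d : Data) : nth 0 ((ps2 d).reverse ++ []) 26 = derivative (d.R2 0 0) := rfl

theorem r2_27 (d : Data) : nth 0 ((ps2 d).reverse ++ []) 27 = d.R2 0 0 := rfl

theorem r2_28 (d : Data) : nth 0 ((ps2 d).reverse ++ []) 28 = derivative (d.P2 1 1) := rfl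

theorem r2_29 (d : Data) : nth 0 ((ps2 d).reverse ++ []) 29 = d.P2 1 1 := rfl

theorem r2_30 (d : Data) : nth 0 ((ps2 d).reverse ++ []) 30 = derivative (d.P2 0 1) := rfl

theorem r2_31 (d : Data) : nth 0 ((ps2 d).reverse ++ []) 31 = d.P2 0 1 := rfl

theorem r2_32 (d : Data) : nth 0 ((ps2 d).reverse ++ []) 32 = derivative (d.P2 0 0) := rfl

theorem r2_33 (d : Data) : nth 0 ((ps2 d).reverse ++ []) 33 = d.P2 0 0 := rfl

theorem r2_34 (d : Data) : nth 0 ((ps2 d).reverse ++ []) 34 = d.m 3 := rfl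

theorem r2_35 (d : Data) : nth 0 ((ps2 d).reverse ++ []) 35 = d.m 2 := rfl

theorem r2_36 (d : Data) : nth 0 ((ps2 d).reverse ++ []) 36 = d.m 1 := rfl

theorem r2_37 (d : Data) : nth 0 ((ps2 d).reverse ++ []) 37 = d.m 0 := rfl

theorem s2_0_0 : sy (nth2 (E.c (Int.ofNat 0)) tab2) 0 0 = a2_0_0 := rfl

theorem s2_0_1 : sy (nth2 (E.c (Int.ofNat 0)) tab2) 0 1 = a2_1_0 := rfl

theorem s2_0_2 : sy (nth2 (E.c (Int.ofNat 0)) tab2) 0 2 = a2_2_0 := rfl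

theorem s2_0_3 : sy (nth2 (E.c (Int.ofNat 0)) tab2) 0 3 = a2_3_0 := rfl

theorem s2_0_4 : sy (nth2 (E.c (Int.ofNat 0)) tab2) 0 4 = a2_4_0 := rfl

theorem s2_0_5 : sy (nth2 (E.c (Int.ofNat 0)) tab2) 0 5 = a2_5_0 := rfl

theorem s2_1_0 : sy (nth2 (E.c (Int.ofNat 0)) tab2) 1 0 = a2_1_0 := rfl

theorem s2_1_1 : sy (nth2 (E.c (Int.ofNat 0)) tab2) 1 1 = a2_1_1 := rfl

theorem s2_1_2 : sy (nth2 (E.c (Int.ofNat 0)) tab2) 1 2 = a2_2_1 := rfl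

theorem s2_1_3 : sy (nth2 (E.c (Int.ofNat 0)) tab2) 1 3 = a2_3_1 := rfl

theorem s2_1_4 : sy (nth2 (E.c (Int.ofNat 0)) tab2) 1 4 = a2_4_1 := rfl

theorem s2_1_5 : sy (nth2 (E.c (Int.ofNat 0)) tab2) 1 5 = a2_5_1 := rfl

theorem s2_2_0 : sy (nth2 (E.c (Int.ofNat 0)) tab2) 2 0 = a2_2_0 := rfl

theorem s2_2_1 : sy (nth2 (E.c (Int.ofNat 0)) tab2) 2 1 = a2_2_1 := rfl

theorem s2_2_2 : sy (nth2 (E.c (Int.ofNat 0)) tab2) 2 2 = a2_2_2 := rfl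

theorem s2_2_3 : sy (nth2 (E.c (Int.ofNat 0)) tab2) 2 3 = a2_3_2 := rfl

theorem s2_2_4 : sy (nth2 (E.c (Int.ofNat 0)) tab2) 2 4 = a2_4_2 := rfl

theorem s2_2_5 : sy (nth2 (E.c (Int.ofNat 0)) tab2) 2 5 = a2_5_2 := rfl

theorem s2_3_0 : sy (nth2 (E.c (Int.ofNat 0)) tab2) 3 0 = a2_3_0 := rfl

theorem s2_3_1 : sy (nth2 (E.c (Int.ofNat 0)) tab2) 3 1 = a2_3_1 := rfl

theorem s2_3_2 : sy (nth2 (E.c (Int.ofNat 0)) tab2) 3 2 = a2_3_2 := rfl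

theorem s2_3_3 : sy (nth2 (E.c (Int.ofNat 0)) tab2) 3 3 = a2_3_3 := rfl

theorem s2_3_4 : sy (nth2 (E.c (Int.ofNat 0)) tab2) 3 4 = a2_4_3 := rfl

theorem s2_3_5 : sy (nth2 (E.c (Int.ofNat 0)) tab2) 3 5 = a2_5_3 := rfl

theorem s2_4_0 : sy (nth2 (E.c (Int.ofNat 0)) tab2) 4 0 = a2_4_0 := rfl

theorem s2_4_1 : sy (nth2 (E.c (Int.ofNat 0)) tab2) 4 1 = a2_4_1 := rfl

theorem s2_4_2 : sy (nth2 (E.c (Int.ofNat 0)) tab2) 4 2 = a2_4_2 := rfl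

theorem s2_4_3 : sy (nth2 (E.c (Int.ofNat 0)) tab2) 4 3 = a2_4_3 := rfl

theorem s2_4_4 : sy (nth2 (E.c (Int.ofNat 0)) tab2) 4 4 = a2_4_4 := rfl

theorem s2_4_5 : sy (nth2 (E.c (Int.ofNat 0)) tab2) 4 5 = a2_5_4 := rfl

theorem s2_5_0 : sy (nth2 (E.c (Int.ofNat 0)) tab2) 5 0 = a2_5_0 := rfl

theorem s2_5_1 : sy (nth2 (E.c (Int.ofNat 0)) tab2) 5 1 = a2_5_1 := rfl

theorem s2_5_2 : sy (nth2 (E.c (Int.ofNat 0)) tab2) 5 2 = a2_5_2 := rfl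

theorem s2_5_3 : sy (nth2 (E.c (Int.ofNat 0)) tab2) 5 3 = a2_5_3 := rfl

theorem s2_5_4 : sy (nth2 (E.c (Int.ofNat 0)) tab2) 5 4 = a2_5_4 := rfl

theorem s2_5_5 : sy (nth2 (E.c (Int.ofNat 0)) tab2) 5 5 = a2_5_5 := rfl

set_option maxHeartbeats 4000000 in
set_option maxRecDepth 100000 in
theorem link2 (d : Data) (a : ℝ) (G J : ℕ → ℝ) :
    ∑ i ∈ Finset.range 6, ∑ j ∈ Finset.range 6,
      (den ((ps2 d).reverse ++ []) (sy (nth2 (E.c (Int.ofNat 0)) tab2) i j)).eval a *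
        nth 0 [G 3, G 2, G 1, G 0, J 0, J 1] i * nth 0 [G 3, G 2, G 1, G 0, J 0, J 1] j =
      9375 * (d.FF2 (ev a 0 0) G J - (1 / 10 ^ 4 * nG G + 1 / 2 ^ 40 *
        (nG G + J 0 ^ 2 + J 1 ^ 2))) := by
  simp only [Finset.sum_range_succ, Finset.range_zero, Finset.sum_empty, zero_add,
    s2_0_0, s2_0_1, s2_0_2, s2_0_3, s2_0_4, s2_0_5, s2_1_0, s2_1_1, s2_1_2, s2_1_3, s2_1_4, s2_1_5, s2_2_0, s2_2_1, s2_2_2, s2_2_3, s2_2_4, s2_2_5, s2_3_0, s2_3_1, s2_3_2, s2_3_3, s2_3_4, s2_3_5, s2_4_0, s2_4_1, s2_4_2, s2_4_3, s2_4_4, s2_4_5, s2_5_0, s2_5_1, s2_5_2, s2_5_3, s2_5_4, s2_5_5]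
  simp only [a2_0_0, a2_1_0, a2_1_1, a2_2_0, a2_2_1, a2_2_2, a2_3_0, a2_3_1, a2_3_2, a2_3_3, a2_4_0, a2_4_1, a2_4_2, a2_4_3, a2_4_4, a2_5_0, a2_5_1, a2_5_2, a2_5_3, a2_5_4, a2_5_5,
    den, r2_0, r2_1, r2_2, r2_3, r2_4, r2_5, r2_6, r2_7, r2_8, r2_9, r2_10, r2_11, r2_12, r2_13, r2_14, r2_15, r2_16, r2_17, r2_18, r2_19, r2_20, r2_21, r2_22, r2_23, r2_24, r2_25, r2_26, r2_27, r2_28, r2_29, r2_30, r2_31, r2_32, r2_33, r2_34, r2_35, r2_36, r2_37]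
  simp only [Data.FF2, Data.Yd, Data.IT, tT, tR, tP, nG, Nat.reduceAdd, ev_inn]
  simp only [Data.mm, sh, Dy, map_add, map_sub, map_mul, map_neg, map_pow, map_ofNat, map_one,
    inn_x, inn_t, inn_l, inn_c, inn_px, inn_y, inn_e, inn_a', inn_D, inn_dot, map_natCast,
    derivative_mul, derivative_X, derivative_one, derivative_C, derivative_ofNat,
    derivative_zero, map_zero, derivative_pow,
    eval_add, eval_sub, eval_mul, eval_neg, eval_pow, eval_ofNat, eval_one, eval_zero, eval_X, eval_C,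
    eval_natCast, nth_zero, nth_succ, Int.ofNat_eq_natCast, Int.cast_natCast, Int.cast_negSucc]
  push_cast
  ring

end Vale.Agent.P264.Ck
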