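import Vale.Agent.P264.Fld

/-! Certificate data, the fields and quadratic forms built from it. -/

open Set Polynomial

noncomputable section

namespace Vale.Agent.P264

open Fl

/-- the polynomials of the certificate -/
structure Data where
  /-- approximate self-similar profile `1 - x U` -/
  U : ℝ[X]
  /-- weights of the energy -/
  m : ℕ → ℝ[X]
  /-- multipliers of the first inequality -/
  q00 : ℝ[X]
  /-- multipliers of the first inequality -/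
  pC : ℕ → ℝ[X]
  /-- multipliers of the first inequality -/
  pD : ℕ → ℕ → ℝ[X]
  /-- multipliers of the first inequality -/
  P : ℕ → ℕ → ℝ[X]
  /-- multipliers of the first inequality -/
  R : ℕ → ℕ → ℝ[X]
  /-- multipliers of the second inequality -/
  t2 : ℕ → ℕ → ℝ[X]
  /-- multipliers of the second inequality -/
  P2 : ℕ → ℕ → ℝ[X]
  /-- multipliers of the second inequality -/
  R2 : ℕ → ℕ → ℝ[X]
  /-- approximate adjoint eigenfunctions -/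
  ct : ℕ → ℝ[X]
  /-- approximate eigenvalues -/
  eig : ℕ → ℝ
  /-- directions of the initial data -/
  dir : ℕ → ℝ[X]

/-- coefficients of the operator in terms of `D` -/
def cK : ℕ → Fl
  | 1 => -110 - 44 * t + 468 * t ^ 2 - 312 * t ^ 3
  | 2 => 89 - 246 * t + 156 * t ^ 2
  | 3 => 20 - 22 * t
  | _ => 1

/-- outer weights -/
def mOut : ℕ → ℝ
  | 1 => 12
  | 2 => 8
  | _ => 1

/-- outer multipliers -/
def pOut : ℕ → ℕ → ℝ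
  | 1, 1 => 50
  | 1, 2 => 86
  | 1, 3 => 24
  | 1, 4 => -16
  | 2, 2 => 53
  | 2, 3 => 26
  | 2, 4 => -8
  | 3, 3 => -35
  | 3, 4 => 12
  | _, _ => 2

/-- `y⁻¹ τ d/dτ (y F)` -/
def DtY (F : Fl) : Fl := Dt F - x * a' * F

/-- the adjoint of `D` conjugated by `y` -/
def Tadj (F : Fl) : Fl := -(Dy 1 F + e * F)

/-- energy density -/
def nG (G : ℕ → ℝ) : ℝ := G 0 ^ 2 + G 1 ^ 2 + G 2 ^ 2 + G 3 ^ 2

/-- dissipation density -/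
def nM (M : ℕ → ℝ) : ℝ := M 1 ^ 2 + M 2 ^ 2 + M 3 ^ 2 + M 4 ^ 2 + M 5 ^ 2

section Terms

variable (v : Fl →ₐ[ℝ] ℝ) (G M : ℕ → ℝ)

/-- exact derivative of `τ (1 - τ) p G i G j` -/
def tT (p : Fl) (i j : ℕ) : ℝ := v (sh p) * G i * G j + v p * (G (i + 1) * G j + G i * G (j + 1))

/-- exact derivative of `τ (1 - τ) p G i M j` -/
def tC (p : Fl) (i j : ℕ) : ℝ := v (D p) * G i * M j + v p * (G (i + 1) * M j + G i * M (j + 1))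

/-- exact derivative of `τ (1 - τ) p M i M j` -/
def tD (p : Fl) (i j : ℕ) : ℝ :=
  v (D p - e * p) * M i * M j + v p * (M (i + 1) * M j + M i * M (j + 1))

/-- exact derivative of `τ (1 - τ) q J G j` -/
def tR (q ζ : Fl) (J : ℝ) (j : ℕ) : ℝ :=
  v (Dy 1 q + e * q) * J * G j + v (y * q * x * (1 - x) * ζ) * G 0 * G j + v q * J * G (j + 1)

/-- exact derivative of `l P I I'` -/
def tP (P : ℝ[X]) (ζ ζ' : Fl) (J J' : ℝ) : ℝ :=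
  15 * v (px (derivative P)) * J * J' + 15 * v (y * px P) * (v ζ * G 0 * J' + v ζ' * G 0 * J)

/-- `y * ∑ c j M j + 312 l ^ 2 x (1 - τ) G 0` -/
def YK : ℝ := v y * (v (cK 1) * M 1 + v (cK 2) * M 2 + v (cK 3) * M 3 + v (cK 4) * M 4) +
  312 * v (l ^ 2 * x * (1 - t)) * G 0

/-- `∑ c j M j + 312 l τ (1 - τ) G 0` -/
def SK : ℝ := v (cK 1) * M 1 + v (cK 2) * M 2 + v (cK 3) * M 3 + v (cK 4) * M 4 +
  312 * v (l * t * (1 - t)) * G 0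

/-- the derivative of the principal part -/
def RK : ℝ := v (D (cK 1) - 2 * e * cK 1) * M 1 + v (cK 1) * M 2 +
  (v (D (cK 2) - 2 * e * cK 2) * M 2 + v (cK 2) * M 3) +
  (v (D (cK 3) - 2 * e * cK 3) * M 3 + v (cK 3) * M 4) +
  (v (D (cK 4) - 2 * e * cK 4) * M 4 + v (cK 4) * M 5) + 312 * v (l * t * (1 - t)) * G 1

end Terms

namespace Data

variable (d : Data)

/-- approximate solution -/
def chi : Fl := 1 - x * (1 - t) * px d.U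

/-- approximate solution in the variable `l g` -/
def Gs : Fl := -(y * px d.U)

/-- first step towards `F3` -/
def Z2 : Fl := DtY ((1 - t) ^ 2 * px d.U) + 11 * ((1 - t) ^ 2 * px d.U)

/-- second step towards `F3` -/
def Zt : Fl := -(DtY d.Z2 + 10 * d.Z2)

/-- third step towards `F3` -/
def F2 : Fl := Dc d.Zt - a' * d.Zt

/-- `l ^ 2 K Gs = y ^ 3 F3` -/
def F3 : Fl := Dc d.F2 - 2 * a' * d.F2

/-- potential -/
def V2 : Fl := -(x * (1 - t) * d.F3)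

/-- potential of the linearised operator -/
def V : Fl := 2 * d.chi * d.V2

/-- residual -/
def A : Fl := c (15 / 2) * (1 - t) * (px d.U + x * px (derivative d.U)) - d.chi ^ 2 * y * d.F3

/-- weights -/
def mm : ℕ → Fl
  | 0 => x * (1 - t) * px (d.m 0)
  | i => (1 - t) * px (d.m i) + t * c (mOut i)

/-- adjoint eigenfunctions -/
def zeta (k : ℕ) : Fl := x ^ 2 * (1 - x) ^ 2 * px (d.ct k)

/-- multipliers -/
def pDf (i j : ℕ) : Fl := (1 - t) * px (d.pD i j) + t * c (pOut i j)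

/-- weight of the unstable functionals -/
def Zl (k : ℕ) : Fl := 15 * y * d.zeta k

/-- weight of the remainder in the adjoint equation -/
def Zf (k : ℕ) : Fl := 225 * y ^ 2 * x * (1 - x) * px (d.ct k)

/-- principal weight in the adjoint equation -/
def wt (k : ℕ) : Fl := 3375 * y ^ 5 * px (d.ct k) * d.chi ^ 2

/-- residual of the adjoint equation -/
def Ad (k : ℕ) : Fl :=
  15 * y * (c (1 / 2) * (D (d.zeta k) - 2 * x * d.zeta k) - c (d.eig k) * d.zeta k +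
    y ^ 2 * d.V * d.zeta k - 312 * l ^ 2 * d.chi ^ 2 * d.zeta k) -
  (Tadj (d.wt k * cK 1) + Tadj (Tadj (d.wt k * cK 2)) + Tadj (Tadj (Tadj (d.wt k * cK 3))) +
    Tadj (Tadj (Tadj (Tadj (d.wt k * cK 4)))))

variable (v : Fl →ₐ[ℝ] ℝ) (G M J : ℕ → ℝ)

/-- the linear part, times `x (1 - τ)` -/
def L0 : ℝ := -(v (d.chi ^ 2) * YK v G M) + v (x * (1 - t) * y ^ 2 * d.V) * G 0

/-- the derivative of the linear part, times `τ (1 - τ) / l` -/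
def L1 : ℝ := -(v (d.chi ^ 2) * RK v G M) - v (D (d.chi ^ 2)) * SK v G M +
  v (x * (1 - t) * y) * (v (Dy 2 d.V) * G 0 + v d.V * G 1)

/-- the multiplier of `L1` -/
def Bt : ℝ := v (d.mm 1) * M 1 - v (sh (d.mm 2)) * M 2 + v (sh (sh (d.mm 3)) - d.mm 2) * M 3 +
  2 * v (sh (d.mm 3)) * M 4 + v (d.mm 3) * M 5

/-- energy density -/
def Yd : ℝ := v (d.mm 0) * G 0 ^ 2 + v (d.mm 1) * G 1 ^ 2 + v (d.mm 2) * G 2 ^ 2 +
  v (d.mm 3) * G 3 ^ 2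

/-- minus the time derivative of the energy density, linear part -/
def F0 : ℝ := v (c (1 / 2) * d.mm 0 - dot (d.mm 0)) * G 0 ^ 2 +
  v (c (1 / 2) * d.mm 1 - dot (d.mm 1)) * G 1 ^ 2 + v (c (1 / 2) * d.mm 2 - dot (d.mm 2)) * G 2 ^ 2 +
  v (c (1 / 2) * d.mm 3 - dot (d.mm 3)) * G 3 ^ 2 -
  2 * v (px (d.m 0)) * G 0 * d.L0 v G M - 2 * d.Bt v M * d.L1 v G M

/-- terms with the running integrals -/
def IT (P R : ℕ → ℕ → ℝ[X]) : ℝ :=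
  tP v G (P 0 0) (d.zeta 0) (d.zeta 0) (J 0) (J 0) +
  2 * tP v G (P 0 1) (d.zeta 0) (d.zeta 1) (J 0) (J 1) +
  tP v G (P 1 1) (d.zeta 1) (d.zeta 1) (J 1) (J 1) +
  2 * (tR v G ((1 - x) * px (R 0 0)) (d.zeta 0) (J 0) 0 +
    tR v G ((1 - x) * px (R 0 1)) (d.zeta 0) (J 0) 1 +
    tR v G ((1 - x) * px (R 0 2)) (d.zeta 0) (J 0) 2 +
    tR v G ((1 - x) * px (R 1 0)) (d.zeta 1) (J 1) 0 +
    tR v G ((1 - x) * px (R 1 1)) (d.zeta 1) (J 1) 1 +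
    tR v G ((1 - x) * px (R 1 2)) (d.zeta 1) (J 1) 2)

/-- the first quadratic form -/
def F1 (Λ : ℝ) : ℝ := d.F0 v G M + tT v G ((1 - x) * px d.q00 - t) 0 0 +
  2 * (tC v G M ((1 - t) * px (d.pC 1)) 0 1 + tC v G M ((1 - t) * px (d.pC 2)) 0 2) +
  (tD v M (d.pDf 1 1) 1 1 + tD v M (d.pDf 2 2) 2 2 + tD v M (d.pDf 3 3) 3 3 +
    tD v M (d.pDf 4 4) 4 4) +
  2 * (tD v M (d.pDf 1 2) 1 2 + tD v M (d.pDf 1 3) 1 3 + tD v M (d.pDf 1 4) 1 4 +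
    tD v M (d.pDf 2 3) 2 3 + tD v M (d.pDf 2 4) 2 4 + tD v M (d.pDf 3 4) 3 4) +
  2 * Λ * tD v M (t * (1 - t)) 3 4 + d.IT v G J d.P d.R

/-- the second quadratic form -/
def FF2 : ℝ := d.Yd v G + (tT v G ((1 - x) * px (d.t2 0 0) - t) 0 0 +
    tT v G ((1 - x) * px (d.t2 1 1)) 1 1 + tT v G ((1 - x) * px (d.t2 2 2)) 2 2) +
  2 * (tT v G ((1 - x) * px (d.t2 0 1)) 0 1 + tT v G ((1 - x) * px (d.t2 0 2)) 0 2 +
    tT v G ((1 - x) * px (d.t2 1 2)) 1 2) + d.IT v G J d.P2 d.R2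

/-- the fields with their bounds -/
def bounds : List (Fl × ℝ) :=
  [(d.chi - c (21 / 20), 19 / 20), (D d.chi, 10), (y * d.V2, 10 ^ 4), (y * Dy 2 d.V2, 10 ^ 4),
    (d.A, 1 / 10 ^ 85), (Dy 2 d.A, 1 / 10 ^ 85), (px (d.m 0), 10 ^ 6), (d.mm 1, 10 ^ 6),
    (d.mm 2, 10 ^ 6), (d.mm 3, 10 ^ 6), (sh (d.mm 2), 10 ^ 6),
    (sh (sh (d.mm 3)) - d.mm 2, 10 ^ 6), (2 * sh (d.mm 3), 10 ^ 6),
    (d.Ad 0, 1 / 10 ^ 15), (d.Ad 1, 1 / 10 ^ 15), (d.Zf 0, 10), (d.Zf 1, 10), (d.Zl 0, 10),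
    (d.Zl 1, 10)]

/-- facts that do not involve the scale -/
structure Static : Prop where
  eig : ∀ k ≤ 1, 1 / 2 ≤ d.eig k ∧ d.eig k ≤ 2
  P1 : ∀ a b : ℝ, (d.P 0 0).eval 1 * a ^ 2 + 2 * (d.P 0 1).eval 1 * a * b +
    (d.P 1 1).eval 1 * b ^ 2 ≤ 10 ^ 11 * (a ^ 2 + b ^ 2)
  P2 : ∀ a b : ℝ, (d.P2 0 0).eval 1 * a ^ 2 + 2 * (d.P2 0 1).eval 1 * a * b +
    (d.P2 1 1).eval 1 * b ^ 2 ≤ 10 ^ 11 * (a ^ 2 + b ^ 2)
  cone : 1 / 5 ≤ d.U.eval 1 ∧ d.U.eval 1 ≤ 1 / 2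
  dir : ∀ k ≤ 1, ∀ j ≤ 3, ∀ a ∈ Icc (0 : ℝ) 1,
    |((fun p : ℝ[X] => X * (1 - X) * derivative p - X * p)^[j] (d.dir k)).eval a| ≤ 10 ^ 4
  mom : ∀ k ≤ 1, ∀ i ≤ 1, |(∫ a in (0 : ℝ)..1,
    (X ^ 2 * (1 - X) ^ 2 * d.ct k * ((1 - X) * d.dir i)).eval a) - if k = i then 1 else 0| ≤ 1 / 10

/-- what holds for all small scales -/
structure Good (l0 : ℝ) : Prop extends d.Static where
  pos : 0 < l0
  small : l0 ≤ 1 / 1000
  bd : ∀ p ∈ d.bounds, ∀ l ∈ Ioc 0 l0, ∀ τ ∈ Icc (0 : ℝ) 1, |evc l τ p.1| ≤ p.2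
  lmi1 : ∃ Λ : ℝ, ∀ l ∈ Ioc 0 l0, ∀ τ ∈ Icc (0 : ℝ) 1, ∀ G M J : ℕ → ℝ,
    (∀ j, 1 ≤ j → j ≤ 3 → l * G j = τ * (1 - τ) * M j) →
    1 / 10 ^ 4 * (nG G + nM M) ≤ d.F1 (evc l τ) G M J Λ
  lmi2 : ∀ l ∈ Ioc 0 l0, ∀ τ ∈ Icc (0 : ℝ) 1, ∀ G J : ℕ → ℝ,
    1 / 10 ^ 4 * nG G ≤ d.FF2 (evc l τ) G J

/-- what is checked by computation on the inner arc -/
structure Cert : Prop extends d.Static where
  bd : ∀ p ∈ d.bounds, ∀ a ∈ Icc (0 : ℝ) 1, |ev a 0 0 p.1| < p.2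
  resid : |ev 1 0 0 d.A| < 1 / 10 ^ 86
  m0 : 8 ≤ (d.m 0).eval 1
  m1 : 4 ≤ (d.m 1).eval 1 ∧ (d.m 1).eval 1 ≤ 10 ^ 4
  m2 : 1 ≤ (d.m 2).eval 1 ∧ (d.m 2).eval 1 ≤ 10 ^ 4
  m3 : 1 / 10 ≤ (d.m 3).eval 1 ∧ (d.m 3).eval 1 ≤ 10 ^ 4
  lmi1 : ∃ ε : ℝ, 0 < ε ∧ ∀ a ∈ Icc (0 : ℝ) 1, ∀ G M J z : ℕ → ℝ,
    (∀ j, 1 ≤ j → j ≤ 3 → G j = 15 * a * z j ∧ M j = (1 - a) * z j) →
    1 / 10 ^ 4 * (nG G + nM M) +
      ε * (G 0 ^ 2 + z 1 ^ 2 + z 2 ^ 2 + z 3 ^ 2 + M 4 ^ 2 + M 5 ^ 2 + J 0 ^ 2 + J 1 ^ 2) ≤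
      d.F1 (ev a 0 0) G M J 0
  lmi2 : ∃ ε : ℝ, 0 < ε ∧ ∀ a ∈ Icc (0 : ℝ) 1, ∀ G J : ℕ → ℝ,
    1 / 10 ^ 4 * nG G + ε * (nG G + J 0 ^ 2 + J 1 ^ 2) ≤ d.FF2 (ev a 0 0) G J

end Data

end Vale.Agent.P264
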